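import Vale.Agent.P186.Thin
import Vale.Agent.P194.Filling2
import Vale.Agent.P194.Main

/-! A hyperbolic group that is not residually finite. -/

namespace Vale.Agent.P186

open SimpleGraph Vale.Agent.P194

theorem rf_matrix {K G X : Type} [Field K] [Finite K] [Group G] [Fintype X] [DecidableEq X]
    (hG : Group.ResiduallyFinite G) (A B : Matrix X X (MonoidAlgebra K G)) (h : A * B = 1) :
    B * A = 1 := by
  classical
  ext1 x y
  set r : MonoidAlgebra K G := (B * A) x y - (1 : Matrix X X (MonoidAlgebra K G)) x y with hr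
  have hsep : ∀ p : G × G, ∃ H : FiniteIndexNormalSubgroup G, p.1 ≠ p.2 → p.1⁻¹ * p.2 ∉ H := by
    intro p
    by_cases hp : p.1 = p.2
    · exact ⟨FiniteIndexNormalSubgroup.ofSubgroup ⊤, fun h => absurd hp h⟩
    · obtain ⟨H, hH⟩ := Group.exists_finiteIndexNormalSubgroup_notMem (p.1⁻¹ * p.2)
        fun e => hp (eq_of_inv_mul_eq_one e)
      exact ⟨H, fun _ => hH⟩
  choose H hH using hsep
  let s := r.coeff.support
  let N0 : Subgroup G := ⨅ p ∈ s ×ˢ s, (H p).toSubgroup
  have : N0.FiniteIndex := Subgroup.finiteIndex_iInf' _ fun p _ => inferInstance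
  let N := N0.normalCore
  let π : G →* G ⧸ N := QuotientGroup.mk' N
  have hinj : Set.InjOn π (s : Set G) := by
    intro a ha b hb e
    by_contra hne
    have h1 : a⁻¹ * b ∈ N := QuotientGroup.eq.mp e
    have h2 : a⁻¹ * b ∈ N0 := N0.normalCore_le h1
    simp only [N0, Subgroup.mem_iInf] at h2
    exact hH (a, b) hne (h2 (a, b) (Finset.mem_product.mpr ⟨ha, hb⟩))
  let ρ := MonoidAlgebra.mapDomainRingHom K π
  have : Finite (MonoidAlgebra K (G ⧸ N)) :=
    Finite.of_injective (fun t => (t.coeff : G ⧸ N → K))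
      (DFunLike.coe_injective.comp MonoidAlgebra.coeff_injective)
  have h1 : ρ.mapMatrix A * ρ.mapMatrix B = 1 := by rw [← map_mul, h, map_one]
  have h2 : ρ.mapMatrix (B * A) = ρ.mapMatrix 1 := by
    rw [map_mul, map_one]
    exact mul_eq_one_comm.mp h1
  have h3 : ρ r = 0 := by
    rw [hr, map_sub, sub_eq_zero]
    exact congrFun (congrFun h2 x) y
  have h4 : r = 0 := by
    ext a
    by_cases ha : a ∈ s
    · have := Finsupp.mapDomain_apply' (s : Set G) r.coeff (by simp [s]) hinj ha
      rw [← this]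
      exact congrArg (fun t : MonoidAlgebra K (G ⧸ N) => t.coeff (π a)) h3
    · simpa [s] using ha
  exact sub_eq_zero.mp h4

section

variable {Y : Type} {rs : Set (FreeGroup Y)}

/-- The Cayley graph of a presented group. -/
abbrev cay (rs : Set (FreeGroup Y)) : SimpleGraph (PresentedGroup rs) :=
  mulCayley (Set.range PresentedGroup.of)

theorem adj_letter {a b : PresentedGroup rs} (h : (cay rs).Adj a b) :
    ∃ l : Y × Bool, b = a * letter l := by
  obtain ⟨-, _, ⟨y, rfl⟩, h | h⟩ := (mulCayley_adj' _ _ _).mp h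
  · exact ⟨(y, true), h.symm⟩
  · exact ⟨(y, false), by rw [h, letter_false, mul_inv_cancel_right]⟩

theorem near_adj {a b : PresentedGroup rs} (h : Near a b) : a = b ∨ (cay rs).Adj a b := by
  by_cases hab : a = b
  · exact Or.inl hab
  rcases h with h | ⟨⟨y, _ | _⟩, h⟩
  · exact Or.inl h
  · exact Or.inr ((mulCayley_adj' _ _ _).mpr ⟨hab, _, ⟨y, rfl⟩, Or.inr (by
      rw [h, letter_false, inv_mul_cancel_right])⟩)
  · exact Or.inr ((mulCayley_adj' _ _ _).mpr ⟨hab, _, ⟨y, rfl⟩, Or.inl h.symm⟩)

theorem cay_connected : (cay rs).Connected := by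
  have key : ∀ (L : List (Y × Bool)) (g : PresentedGroup rs),
      (cay rs).Reachable g (g * (L.map letter).prod) := by
    intro L
    induction L with
    | nil => intro g; simp
    | cons l L ih =>
      intro g
      rw [List.map_cons, List.prod_cons, ← mul_assoc]
      refine Reachable.trans ?_ (ih _)
      rcases near_adj (Or.inr ⟨l, rfl⟩ : Near g (g * letter l)) with h | h
      · rw [← h]
      · exact h.reachable
  refine ⟨fun a b => ?_⟩
  obtain ⟨f, hf⟩ := PresentedGroup.mk_surjective rs (a⁻¹ * b)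
  induction f using Quot.ind with
  | mk L =>
    have := key L a
    rw [← mk_eq_prod] at this
    have e : PresentedGroup.mk rs (FreeGroup.mk L) = a⁻¹ * b := hf
    rwa [e, mul_inv_cancel_left] at this

theorem walk_word (ω : PresentedGroup rs → PresentedGroup rs → ℤ) {a b : PresentedGroup rs}
    (p : (cay rs).Walk a b) : ∃ L : List (Y × Bool), L.length = p.length ∧
      a * (L.map letter).prod = b ∧ pathSum ω a L = walkSum ω p := by
  induction p with
  | nil => exact ⟨[], rfl, by simp, rfl⟩
  | cons h p ih =>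
    obtain ⟨L, h1, h2, h3⟩ := ih
    obtain ⟨l, rfl⟩ := adj_letter h
    exact ⟨l :: L, by simp [h1], by rw [List.map_cons, List.prod_cons, ← mul_assoc, h2],
      by rw [pathSum, walkSum, h3]⟩

theorem lip_near {f : PresentedGroup rs → ℤ} (hf : Lip (cay rs) f) {a b : PresentedGroup rs}
    (h : Near a b) : |f a - f b| ≤ 1 := by
  rcases near_adj h with h | h
  · simp [h]
  · exact hf a b h

end

theorem fill_cay {V X : Type} {R : V → X → V → Prop} (h : SmallCanc R) :
    Fill (cay (rels R)) 672 := by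
  intro u p χ f hχ hf
  obtain ⟨L, h1, h2, h3⟩ := walk_word (form χ f) p
  obtain ⟨ι, _, T, hc, hn, hs⟩ := filling h L (mul_eq_left.mp h2) u
  rw [← h3, hs _ (by intro a b; simp only [form]; ring)]
  have : ∀ i ∈ (Finset.univ : Finset ι), form χ f (T i).1 (T i).2.1 +
      form χ f (T i).2.1 (T i).2.2 + form χ f (T i).2.2 (T i).1 ≤ 2 := by
    intro i _
    obtain ⟨n1, -, n3⟩ := hn i
    have a1 := lip_near hχ n1
    have a2 := lip_near hχ n3
    have b1 := lip_near hf n1
    have b2 := lip_near hf n3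
    have e : form χ f (T i).1 (T i).2.1 + form χ f (T i).2.1 (T i).2.2 +
        form χ f (T i).2.2 (T i).1 =
        (χ (T i).2.2 - χ (T i).1) * (f (T i).1 - f (T i).2.1) -
          (χ (T i).1 - χ (T i).2.1) * (f (T i).2.2 - f (T i).1) := by
      simp only [form]; ring
    rw [e]
    have c1 : |(χ (T i).2.2 - χ (T i).1) * (f (T i).1 - f (T i).2.1)| ≤ 1 := by
      rw [abs_mul]; exact mul_le_one₀ a2 (abs_nonneg _) b1
    have c2 : |(χ (T i).1 - χ (T i).2.1) * (f (T i).2.2 - f (T i).1)| ≤ 1 := by
      rw [abs_mul]; exact mul_le_one₀ a1 (abs_nonneg _) b2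
    have := abs_le.mp c1
    have := abs_le.mp c2
    linarith
  have h4 := Finset.sum_le_card_nsmul _ _ _ this
  rw [Finset.card_univ, nsmul_eq_mul] at h4
  have h5 : (Fintype.card ι : ℤ) ≤ 336 * p.length := by rw [← h1]; exact_mod_cast hc
  push_cast
  linarith

theorem main : ∃ (G : Type) (_ : Group G),
    (∃ (S : Finset G) (δ : ℕ), Subgroup.closure (S : Set G) = ⊤ ∧
      ∀ (x y z : G) (p : (mulCayley (S : Set G)).Walk x y) (q : (mulCayley (S : Set G)).Walk y z)
        (r : (mulCayley (S : Set G)).Walk z x),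
        p.length = (mulCayley (S : Set G)).dist x y →
        q.length = (mulCayley (S : Set G)).dist y z →
        r.length = (mulCayley (S : Set G)).dist z x →
        ∀ u ∈ p.support, ∃ v, (v ∈ q.support ∨ v ∈ r.support) ∧
          (mulCayley (S : Set G)).dist u v ≤ δ) ∧ ¬ Group.ResiduallyFinite G := by
  classical
  obtain ⟨K, _, _, V, X, _, _, _, R, -, hR, A, B, h, h'⟩ := stable_counterexample
  refine ⟨PresentedGroup (rels R), inferInstance, ?_, fun hG => h' (rf_matrix hG A B h)⟩
  obtain ⟨δ, hδ⟩ := thin cay_connected (fill_cay hR)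
  have e : ((Finset.univ.image PresentedGroup.of : Finset (PresentedGroup (rels R))) :
      Set (PresentedGroup (rels R))) = Set.range PresentedGroup.of := by simp
  refine ⟨Finset.univ.image PresentedGroup.of, δ, ?_, ?_⟩
  · rw [e]
    exact PresentedGroup.closure_range_of _
  · rw [e]
    exact hδ

end Vale.Agent.P186
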